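import Vale.Agent.Lib.P002.G1Defs

/-!
The polynomial frame from adjugate columns: each statement is one entry of the identity
T * adjugate T = det T • 1 for the auxiliary matrix T = ulT N m.
-/

namespace Vale.Agent.Lib.P002.H23

open Matrix

open Vale.Agent.Lib.P002

/-- One entry of T * adjugate T = det T • 1 for T = ulT N m, in the column Fin.rev m. -/
theorem ulT_row_sum {S : Type*} [CommRing S] {n : ℕ} (N : Matrix (Fin n) (Fin n) S)
    (m i : Fin n) :
    ∑ j, ulT N m i j * ulF N j m = (ulT N m).det * (1 : Matrix (Fin n) (Fin n) S) i (Fin.rev m) := by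
  have h := congrFun (congrFun (Matrix.mul_adjugate (ulT N m)) i) (Fin.rev m)
  rw [Matrix.mul_apply, Matrix.smul_apply, smul_eq_mul] at h
  exact h

theorem ulF_ut {S : Type*} [CommRing S] {n : ℕ} (N : Matrix (Fin n) (Fin n) S) :
    ∀ i j, j < i → ulF N i j = 0 := by
  intro i j hji
  have hlt : j.val < i.val := hji
  have hi : i.val < n := i.isLt
  have hi' : i.val - j.val - 1 < n := by omega
  have h := ulT_row_sum N j ⟨i.val - j.val - 1, hi'⟩
  have hne : (⟨i.val - j.val - 1, hi'⟩ : Fin n) ≠ Fin.rev j := by
    intro h'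
    have h'' := congrArg Fin.val h'
    rw [Fin.val_rev] at h''
    simp only at h''
    omega
  rw [Matrix.one_apply_ne hne, mul_zero] at h
  rw [Finset.sum_eq_single i] at h
  · have hrow : ulT N j ⟨i.val - j.val - 1, hi'⟩ i = 1 := by
      unfold ulT
      rw [Matrix.of_apply]
      have h1 : i.val - j.val - 1 + j.val + 1 < n := by omega
      have h2 : i.val = i.val - j.val - 1 + j.val + 1 := by omega
      rw [if_pos h1, if_pos h2]
    rw [hrow, one_mul] at h
    exact h
  · intro b _ hb
    have hrow : ulT N j ⟨i.val - j.val - 1, hi'⟩ b = 0 := by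
      unfold ulT
      rw [Matrix.of_apply]
      have h1 : i.val - j.val - 1 + j.val + 1 < n := by omega
      have h2 : ¬ b.val = i.val - j.val - 1 + j.val + 1 := by
        intro hb'
        apply hb
        apply Fin.ext
        omega
      rw [if_pos h1, if_neg h2]
    rw [hrow, zero_mul]
  · intro h'
    exact absurd (Finset.mem_univ _) h'

theorem ulF_diag {S : Type*} [CommRing S] {n : ℕ} (N : Matrix (Fin n) (Fin n) S) (m : Fin n) :
    ulF N m m = (ulT N m).det := by
  have h := ulT_row_sum N m (Fin.rev m)
  rw [Matrix.one_apply_eq, mul_one] at h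
  have hm : m.val < n := m.isLt
  have hv : (Fin.rev m).val = n - (m.val + 1) := Fin.val_rev m
  have h1 : ¬ (Fin.rev m).val + m.val + 1 < n := by omega
  have h2 : (Fin.rev m).val + m.val + 1 = n := by omega
  rw [Finset.sum_eq_single m] at h
  · have hrow : ulT N m (Fin.rev m) m = 1 := by
      unfold ulT
      rw [Matrix.of_apply, if_neg h1, if_pos h2, if_pos rfl]
    rw [hrow, one_mul] at h
    exact h
  · intro b _ hb
    have hrow : ulT N m (Fin.rev m) b = 0 := by
      unfold ulT
      rw [Matrix.of_apply, if_neg h1, if_pos h2, if_neg hb]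
    rw [hrow, zero_mul]
  · intro h'
    exact absurd (Finset.mem_univ _) h'

theorem ulF_mul {S : Type*} [CommRing S] {n : ℕ} (N : Matrix (Fin n) (Fin n) S) :
    ∀ i j, j < i → (N * ulF N * revM S n) i j = 0 := by
  intro i j hji
  have hlt : j.val < i.val := hji
  have hi : i.val < n := i.isLt
  have hv : (Fin.rev j).val = n - (j.val + 1) := Fin.val_rev j
  rw [mul_revM, Matrix.mul_apply]
  have h := ulT_row_sum N (Fin.rev j) i
  rw [Fin.rev_rev] at h
  have hne : i ≠ j := fun h' => by rw [h'] at hlt; exact lt_irrefl _ hlt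
  rw [Matrix.one_apply_ne hne, mul_zero] at h
  rw [← h]
  apply Finset.sum_congr rfl
  intro l _
  have h1 : ¬ i.val + (Fin.rev j).val + 1 < n := by omega
  have h2 : ¬ i.val + (Fin.rev j).val + 1 = n := by omega
  have hrow : ulT N (Fin.rev j) i l = N i l := by
    unfold ulT
    rw [Matrix.of_apply, if_neg h1, if_neg h2]
  rw [hrow]

end Vale.Agent.Lib.P002.H23
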